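import Mathlib
import Crest.Prelude.Def_Submanifold
import Crest.Agent.N222.D.Defs
import Crest.Agent.N222.D.EgrA

-- ▼ part R241/GeoLoc
section

/-!
R241, block D (helper842): local parametrisations, smooth left inverses, second derivatives of maps
into an embedded submanifold.
-/

set_option autoImplicit false

open Set Filter Topology
open scoped ContDiff
open Crest.GeometryTopology.Submanifold

noncomputable section

namespace Crest.Agent.R241.Geo

variable {n N : ℕ} {S : Set (Euc N)} {p : Euc N} {f : Euc n → Euc N} {V : Set (Euc n)}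

theorem lp_mem (h : IsLocalParam n N S p f V) {y : Euc n} (hy : y ∈ V) : f y ∈ S := by
  obtain ⟨U, -, hU⟩ := h.image_open V Subset.rfl h.isOpen
  have : f y ∈ S ∩ U := hU ▸ mem_image_of_mem f hy
  exact this.1

theorem lp_base_mem (h : IsLocalParam n N S p f V) : p ∈ S := by
  have := lp_mem h h.zero_mem
  rwa [h.map_zero] at this

theorem lp_contDiffAt (h : IsLocalParam n N S p f V) {y : Euc n} (hy : y ∈ V) :
    ContDiffAt ℝ ∞ f y :=
  (h.contDiffOn).contDiffAt (h.isOpen.mem_nhds hy)

theorem lp_translate (h : IsLocalParam n N S p f V) {y : Euc n} (hy : y ∈ V) :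
    IsLocalParam n N S (f y) (fun z => f (z + y)) ((fun z => z + y) ⁻¹' V) where
  isOpen := h.isOpen.preimage (by fun_prop)
  zero_mem := by simpa using hy
  map_zero := by simp
  contDiffOn := by
    have h1 : ContDiffOn ℝ (⊤ : ℕ∞) (fun z : Euc n => z + y) ((fun z => z + y) ⁻¹' V) := by fun_prop
    exact h.contDiffOn.comp h1 (fun z hz => hz)
  injOn := by
    intro a ha b hb hab
    have := h.injOn ha hb hab
    simpa using this
  injective_fderiv := by
    intro z hz
    have : fderiv ℝ (fun z => f (z + y)) z = fderiv ℝ f (z + y) := by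
      rw [fderiv_comp_add_right]
    rw [this]
    exact h.injective_fderiv _ hz
  image_open := by
    intro W hW hWo
    have h1 : IsOpen ((fun z => z - y) ⁻¹' W) := hWo.preimage (by fun_prop)
    obtain ⟨U, hU, hU'⟩ := h.image_open ((fun z => z - y) ⁻¹' W) (by
      intro z hz
      have := hW hz
      simpa using this) h1
    refine ⟨U, hU, ?_⟩
    rw [← hU']
    ext x
    constructor
    · rintro ⟨z, hz, rfl⟩
      exact ⟨z + y, by simpa using hz, rfl⟩
    · rintro ⟨z, hz, rfl⟩
      exact ⟨z - y, hz, by simp⟩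

/-- Smooth local left inverse of a parametrisation. -/
structure LInv (S : Set (Euc N)) (f : Euc n → Euc N) (V : Set (Euc n)) (p : Euc N)
    (ρ : Euc N → Euc n) (U : Set (Euc N)) (W : Set (Euc n)) : Prop where
  isOpen : IsOpen U
  mem : p ∈ U
  W_open : IsOpen W
  zero_mem : (0 : Euc n) ∈ W
  W_sub : W ⊆ V
  smooth : ContDiffOn ℝ ∞ ρ U
  maps : ∀ x ∈ U, ρ x ∈ W
  right : ∀ x ∈ S, x ∈ U → f (ρ x) = x
  left : ∀ y ∈ W, f y ∈ U ∧ ρ (f y) = y

theorem exists_linv (h : IsLocalParam n N S p f V) :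
    ∃ (ρ : Euc N → Euc n) (U : Set (Euc N)) (W : Set (Euc n)), LInv S f V p ρ U W := by
  classical
  set A : Euc n →L[ℝ] Euc N := fderiv ℝ f 0 with hA
  have hAinj : Function.Injective A := h.injective_fderiv 0 h.zero_mem
  obtain ⟨B₀, hB₀⟩ := LinearMap.exists_leftInverse_of_injective (A : Euc n →ₗ[ℝ] Euc N)
    (LinearMap.ker_eq_bot.2 hAinj)
  set B : Euc N →L[ℝ] Euc n := B₀.toContinuousLinearMap with hB
  have hBA : B.comp A = ContinuousLinearMap.id ℝ (Euc n) := by
    ext1 x
    have := congrArg (fun L : Euc n →ₗ[ℝ] Euc n => L x) hB₀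
    simpa [hB] using this
  set g : Euc n → Euc n := fun y => B (f y) with hg
  have hfc : ∀ y ∈ V, ContDiffAt ℝ ∞ f y := fun y hy => lp_contDiffAt h hy
  have hgc : ∀ y ∈ V, ContDiffAt ℝ ∞ g y := fun y hy =>
    B.contDiff.contDiffAt.comp y (hfc y hy)
  have hgd : HasFDerivAt g ((ContinuousLinearEquiv.refl ℝ (Euc n) : Euc n ≃L[ℝ] Euc n) :
      Euc n →L[ℝ] Euc n) 0 := by
    have h1 : HasFDerivAt f A 0 :=
      ((hfc 0 h.zero_mem).differentiableAt (by simp)).hasFDerivAt
    have h2 : HasFDerivAt g (B.comp A) 0 := B.hasFDerivAt.comp 0 h1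
    rw [hBA] at h2
    exact h2
  set e := (hgc 0 h.zero_mem).toOpenPartialHomeomorph g hgd (by simp) with he
  have he0 : (0 : Euc n) ∈ e.source :=
    ContDiffAt.mem_toOpenPartialHomeomorph_source (hgc 0 h.zero_mem) hgd (by simp)
  have heg : ∀ y, e y = g y := fun y => rfl
  -- the set where the derivative is invertible
  have hgcont : ContinuousOn (fderiv ℝ g) V := by
    have : ContDiffOn ℝ ∞ g V := fun y hy => (hgc y hy).contDiffWithinAt
    exact (this.continuousOn_fderiv_of_isOpen h.isOpen (by simp))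
  set I : Set (Euc n →L[ℝ] Euc n) := range ((↑) : (Euc n ≃L[ℝ] Euc n) → (Euc n →L[ℝ] Euc n)) with hI
  have hIo : IsOpen I := ContinuousLinearEquiv.isOpen
  set V' : Set (Euc n) := V ∩ fderiv ℝ g ⁻¹' I with hV'
  have hV'o : IsOpen V' := hgcont.isOpen_inter_preimage h.isOpen hIo
  set W : Set (Euc n) := e.source ∩ V' with hW
  have hWo : IsOpen W := e.open_source.inter hV'o
  have h0W : (0 : Euc n) ∈ W := by
    refine ⟨he0, h.zero_mem, ?_⟩
    change fderiv ℝ g 0 ∈ I
    rw [hgd.fderiv]
    exact ⟨_, rfl⟩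
  have hWV : W ⊆ V := fun y hy => hy.2.1
  obtain ⟨U₁, hU₁, hfW⟩ := h.image_open W hWV hWo
  have hgW : IsOpen (e '' W) := e.isOpen_image_of_subset_source hWo (fun y hy => hy.1)
  set U : Set (Euc N) := U₁ ∩ B ⁻¹' (e '' W) with hU
  refine ⟨fun x => e.symm (B x), U, W, ?_⟩
  have hleft : ∀ y ∈ W, e.symm (B (f y)) = y := by
    intro y hy
    have : B (f y) = e y := rfl
    rw [this, e.left_inv hy.1]
  refine ⟨hU₁.inter (hgW.preimage B.continuous), ?_, hWo, h0W, hWV, ?_, ?_, ?_, ?_⟩
  · refine ⟨?_, ?_⟩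
    · have : f 0 ∈ S ∩ U₁ := hfW ▸ mem_image_of_mem f h0W
      rw [← h.map_zero]; exact this.2
    · rw [← h.map_zero]
      exact ⟨0, h0W, rfl⟩
  · intro x hx
    obtain ⟨y, hy, hyx⟩ := hx.2
    obtain ⟨L, hL⟩ := hy.2.2
    have hsymm : ContDiffAt ℝ ∞ e.symm (B x) := by
      rw [← hyx]
      refine e.contDiffAt_symm (f₀' := L) (e.map_source hy.1) ?_ ?_
      · rw [e.left_inv hy.1]
        have : HasFDerivAt g (fderiv ℝ g y) y :=
          ((hgc y hy.2.1).differentiableAt (by simp)).hasFDerivAt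
        rw [← hL] at this
        exact this
      · rw [e.left_inv hy.1]
        exact hgc y hy.2.1
    exact (hsymm.comp x B.contDiff.contDiffAt).contDiffWithinAt
  · intro x hx
    obtain ⟨y, hy, hyx⟩ := hx.2
    have : e.symm (B x) = y := by rw [← hyx, e.left_inv hy.1]
    change e.symm (B x) ∈ W
    rw [this]; exact hy
  · intro x hxS hx
    have : x ∈ f '' W := by rw [hfW]; exact ⟨hxS, hx.1⟩
    obtain ⟨y, hy, rfl⟩ := this
    change f (e.symm (B (f y))) = f y
    rw [hleft y hy]
  · intro y hy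
    refine ⟨⟨?_, ⟨y, hy, rfl⟩⟩, hleft y hy⟩
    have : f y ∈ S ∩ U₁ := hfW ▸ mem_image_of_mem f hy
    exact this.2

end Crest.Agent.R241.Geo
end
end

-- ▼ part R241/GeoTan
section

/-!
R241, block D (helper842): tangent spaces, projections, second derivatives of maps into S.
-/

set_option autoImplicit false

open Set Filter Topology
open scoped ContDiff InnerProductSpace
open Crest.GeometryTopology.Submanifold

noncomputable section

namespace Crest.Agent.R241.Geo

section Pinv

variable {E F : Type*} [NormedAddCommGroup E] [InnerProductSpace ℝ E] [FiniteDimensional ℝ E]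
  [NormedAddCommGroup F] [InnerProductSpace ℝ F] [FiniteDimensional ℝ F]

/-- Adjoint as a continuous linear map (real case). -/
def adjL : (E →L[ℝ] F) →L[ℝ] (F →L[ℝ] E) :=
  haveI := FiniteDimensional.complete ℝ E
  haveI := FiniteDimensional.complete ℝ F
  LinearMap.mkContinuous
    { toFun := fun A => ContinuousLinearMap.adjoint A
      map_add' := fun A B => by simp
      map_smul' := fun c A => by simp } 1 (fun A => by simp)

theorem adjL_inner (A : E →L[ℝ] F) (x : E) (y : F) : ⟪adjL A y, x⟫_ℝ = ⟪y, A x⟫_ℝ := by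
  have := FiniteDimensional.complete ℝ E
  have := FiniteDimensional.complete ℝ F
  exact ContinuousLinearMap.adjoint_inner_left A x y

/-- Moore–Penrose inverse of an injective operator: `(A†A)⁻¹A†`. -/
def pinv (A : E →L[ℝ] F) : F →L[ℝ] E :=
  (ContinuousLinearMap.inverse ((adjL A).comp A)).comp (adjL A)

theorem exists_equiv_adj_comp {A : E →L[ℝ] F} (hA : Function.Injective A) :
    ∃ e : E ≃L[ℝ] E, (e : E →L[ℝ] E) = (adjL A).comp A := by
  have hinj : Function.Injective ((adjL A).comp A : E →L[ℝ] E) := by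
    rw [injective_iff_map_eq_zero]
    intro x hx
    have h1 : ⟪((adjL A).comp A) x, x⟫_ℝ = ⟪A x, A x⟫_ℝ := by
      rw [ContinuousLinearMap.comp_apply, adjL_inner]
    rw [hx, inner_zero_left] at h1
    have h2 : A x = 0 := inner_self_eq_zero.1 h1.symm
    exact hA (by rw [h2, map_zero])
  have hinj' : Function.Injective (((adjL A).comp A : E →L[ℝ] E) : E →ₗ[ℝ] E) := hinj
  refine ⟨(LinearEquiv.ofInjectiveEndo _ hinj').toContinuousLinearEquiv, ?_⟩
  ext x
  rfl

theorem pinv_comp_self {A : E →L[ℝ] F} (hA : Function.Injective A) (x : E) :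
    pinv A (A x) = x := by
  obtain ⟨e, he⟩ := exists_equiv_adj_comp hA
  have h1 : pinv A (A x) = ContinuousLinearMap.inverse ((adjL A).comp A) (((adjL A).comp A) x) :=
    rfl
  rw [h1, ← he, ContinuousLinearMap.inverse_equiv]
  simp


theorem contDiffAt_pinv {A : E →L[ℝ] F} (hA : Function.Injective A) {n : WithTop ℕ∞} :
    ContDiffAt ℝ n (pinv : (E →L[ℝ] F) → (F →L[ℝ] E)) A := by
  have := FiniteDimensional.complete ℝ E
  obtain ⟨e, he⟩ := exists_equiv_adj_comp hA
  have h1 : ContDiffAt ℝ n (fun A : E →L[ℝ] F => (adjL A).comp A) A := by fun_prop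
  have h2 : ContDiffAt ℝ n (ContinuousLinearMap.inverse : (E →L[ℝ] E) → (E →L[ℝ] E))
      ((adjL A).comp A) := by
    rw [← he]; exact contDiffAt_map_inverse e
  have h3 : ContDiffAt ℝ n (fun A : E →L[ℝ] F => ContinuousLinearMap.inverse ((adjL A).comp A)) A :=
    ContDiffAt.comp (g := ContinuousLinearMap.inverse) (f := fun A : E →L[ℝ] F => (adjL A).comp A)
      A h2 h1
  have h4 : ContDiffAt ℝ n (fun A : E →L[ℝ] F => adjL A) A := by fun_prop
  exact h3.clm_comp h4

end Pinv

variable {n N : ℕ} {S : Set (Euc N)} {p : Euc N} {f : Euc n → Euc N} {V : Set (Euc n)}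
  {ρ : Euc N → Euc n} {U : Set (Euc N)} {W : Set (Euc n)}

theorem two_le_infty : (2 : WithTop ℕ∞) ≤ ∞ := by
  exact WithTop.coe_le_coe.2 (le_top : (2 : ℕ∞) ≤ ⊤)


theorem tangentAt_eq_range (f : Euc n → Euc N) (x : Euc n) :
    tangentAt f x = LinearMap.range (fderiv ℝ f x : Euc n →ₗ[ℝ] Euc N) := by
  rw [tangentAt, LinearMap.range_eq_map, ← (EuclideanSpace.basisFun (Fin n) ℝ).toBasis.span_eq,
    Submodule.map_span, ← Set.range_comp]
  congr 1
  ext v
  simp [pd, stdVec, Function.comp_def]

/-- Intrinsic tangent space of a set, spanned by velocities of curves. -/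
def Tn (S : Set (Euc N)) (x : Euc N) : Submodule ℝ (Euc N) :=
  Submodule.span ℝ {v | ∃ c : ℝ → Euc N, c 0 = x ∧ HasDerivAt c v 0 ∧ ∀ᶠ t in 𝓝 (0 : ℝ), c t ∈ S}

/-- Orthogonal projection on the tangent space. -/
def Pt (S : Set (Euc N)) (x : Euc N) : Euc N →L[ℝ] Euc N := (Tn S x).starProjection













end Crest.Agent.R241.Geo
end
end

-- ▼ part N222/D/Egr

/-!
# Row 222, part D: theorema egregium (helper36)
-/

set_option autoImplicit false

open Set Filter Topology
open scoped ContDiff InnerProductSpace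
open Crest.GeometryTopology Crest.GeometryTopology.CoordMetric
open Crest.Agent.R202.Tens Crest.Agent.R247.Bo84 Crest.Agent.R273.RMan_798

noncomputable section

namespace Crest.Agent.N222.D

variable {n N : ℕ} {f : EE n → EE N} {V : Set (EE n)}

theorem egr_fderiv_sum (f : EE n → EE N) (x X : EE n) :
    fderiv ℝ f x X = ∑ i, X i • Submanifold.pd f x i := by
  conv_lhs => rw [eq_sum_single X]
  rw [map_sum]
  refine Finset.sum_congr rfl fun i _ => ?_
  rw [map_smul]
  rfl

theorem egr_sum (f : EE n → EE N) (x X Y : EE n) :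
    ∑ i, ∑ j, Submanifold.metricMat f x i j * X i * Y j
      = ⟪fderiv ℝ f x X, fderiv ℝ f x Y⟫_ℝ := by
  rw [egr_fderiv_sum f x X, egr_fderiv_sum f x Y, sum_inner]
  refine Finset.sum_congr rfl fun i _ => ?_
  rw [inner_sum]
  refine Finset.sum_congr rfl fun j _ => ?_
  rw [real_inner_smul_left, real_inner_smul_right, Submanifold.metricMat, Matrix.of_apply]
  ring

theorem egr_bil (f : EE n → EE N) (x X Y : EE n) :
    bil (Submanifold.metricMat f x) X Y = ⟪fderiv ℝ f x X, fderiv ℝ f x Y⟫_ℝ := by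
  rw [bil_apply, egr_sum]

theorem egr_posDef {x : EE n} (hx : Function.Injective (fderiv ℝ f x)) :
    (Submanifold.metricMat f x).PosDef := by
  refine Matrix.PosDef.of_dotProduct_mulVec_pos ?_ ?_
  · ext i j
    simp only [Matrix.conjTranspose_apply, star_trivial, Submanifold.metricMat, Matrix.of_apply]
    exact real_inner_comm _ _
  · intro v hv
    have h1 : star v ⬝ᵥ (Submanifold.metricMat f x).mulVec v
        = ⟪fderiv ℝ f x (WithLp.toLp 2 v), fderiv ℝ f x (WithLp.toLp 2 v)⟫_ℝ := by
      rw [← egr_sum]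
      simp only [dotProduct, Matrix.mulVec, star_trivial, Finset.mul_sum]
      refine Finset.sum_congr rfl fun i _ => Finset.sum_congr rfl fun j _ => ?_
      ring
    rw [h1]
    refine real_inner_self_pos.2 fun h => hv ?_
    have h2 : (WithLp.toLp 2 v : EE n) = 0 := hx (by rw [h, map_zero])
    exact (WithLp.toLp_eq_zero 2).1 h2

theorem egr_riem (hV : IsOpen V) (hf : ContDiffOn ℝ ∞ f V)
    (hinj : ∀ x ∈ V, Function.Injective (fderiv ℝ f x)) :
    IsRiemannianOn (Submanifold.metricMat f) V where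
  isOpen := hV
  contDiffOn i j := by
    have h1 : ContDiffOn ℝ ∞ (fderiv ℝ f) V := hf.fderiv_of_isOpen hV (by simp)
    exact (h1.clm_apply contDiffOn_const).inner ℝ (h1.clm_apply contDiffOn_const)
  posDef x hx := egr_posDef (hinj x hx)

theorem egr_normal (hV : IsOpen V) (hf : ContDiffOn ℝ ∞ f V)
    (hinj : ∀ x ∈ V, Function.Injective (fderiv ℝ f x)) {x : EE n} (hx : x ∈ V) (X Y Z : EE n) :
    ⟪fderiv ℝ (fderiv ℝ f) x X Y - fderiv ℝ f x (Gam (Submanifold.metricMat f) x X Y),
      fderiv ℝ f x Z⟫_ℝ = 0 := by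
  have hg := egr_riem hV hf hinj
  have hd := differentiableAt_entry hg hx
  refine egr_lc (G := Gf (Submanifold.metricMat f))
    ((hf.contDiffAt (hV.mem_nhds hx)).of_le Crest.Agent.R241.Geo.two_le_infty)
    (Eventually.of_forall fun z X Y => egr_bil f z X Y) (hasFDerivAt_Gf hd).differentiableAt
    (isLC_Gam hd ?_ (metric_symm hg hx)) X Y Z
  exact (hg.posDef x hx).det_pos.ne'.isUnit

theorem egr_sff (hV : IsOpen V) (hf : ContDiffOn ℝ ∞ f V)
    (hinj : ∀ x ∈ V, Function.Injective (fderiv ℝ f x)) {x : EE n} (hx : x ∈ V) (i j : Fin n) :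
    Submanifold.sff f x i j =
      fderiv ℝ (fderiv ℝ f) x (EuclideanSpace.single i 1) (EuclideanSpace.single j 1)
        - fderiv ℝ f x (Gam (Submanifold.metricMat f) x (EuclideanSpace.single i 1)
          (EuclideanSpace.single j 1)) := by
  have hdd : DifferentiableAt ℝ (fderiv ℝ f) x :=
    ((hf.fderiv_of_isOpen (m := ∞) hV (by simp)).contDiffAt (hV.mem_nhds hx)).differentiableAt
      (by simp)
  have hh : Submanifold.hess f x i j =
      fderiv ℝ (fderiv ℝ f) x (EuclideanSpace.single i 1) (EuclideanSpace.single j 1) :=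
    egr_d1 hdd _ _
  rw [Submanifold.sff, Submanifold.normalPart, hh]
  congr 1
  refine Submodule.eq_starProjection_of_mem_of_inner_eq_zero ?_ ?_
  · rw [Crest.Agent.R241.Geo.tangentAt_eq_range]
    exact ⟨_, rfl⟩
  · intro w hw
    rw [Crest.Agent.R241.Geo.tangentAt_eq_range] at hw
    obtain ⟨Z, rfl⟩ := hw
    exact egr_normal hV hf hinj hx _ _ Z

theorem egr_curv (hV : IsOpen V) (hf : ContDiffOn ℝ ∞ f V)
    (hinj : ∀ x ∈ V, Function.Injective (fderiv ℝ f x)) {x : EE n} (hx : x ∈ V)
    (i j k l : Fin n) :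
    Submanifold.riem f x i j k l = bil (Submanifold.metricMat f x)
      (curv (Gam (Submanifold.metricMat f)) x (EuclideanSpace.single i 1)
        (EuclideanSpace.single j 1) (EuclideanSpace.single k 1)) (EuclideanSpace.single l 1) := by
  have hg := egr_riem hV hf hinj
  have h3 : (3 : WithTop ℕ∞) ≤ ∞ := by
    have : ((3 : ℕ∞) : WithTop ℕ∞) ≤ ((⊤ : ℕ∞) : WithTop ℕ∞) := WithTop.coe_le_coe.2 le_top
    exact this
  rw [egr_bil, egr_gauss ((hf.contDiffAt (hV.mem_nhds hx)).of_le h3)
    (hasFDerivAt_Gam (differentiableAt_christoffel hg hx)).differentiableAt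
    (by filter_upwards [hV.mem_nhds hx] with z hz using egr_normal hV hf hinj hz),
    Submanifold.riem, egr_sff hV hf hinj hx, egr_sff hV hf hinj hx, egr_sff hV hf hinj hx,
    egr_sff hV hf hinj hx, real_inner_comm (fderiv ℝ (fderiv ℝ f) x (EuclideanSpace.single j 1)
      (EuclideanSpace.single l 1) - _)]

theorem egr_raise {M : Matrix (Fin n) (Fin n) ℝ} (hM : M.PosDef) (u : EE n) (a : Fin n) :
    ∑ b, M⁻¹ a b * bil M u (EuclideanSpace.single b 1) = u a := by
  have hs : ∀ i j, M i j = M j i := fun i j => by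
    have := hM.isHermitian.apply j i
    simpa using this
  have h1 : ∀ b, bil M u (EuclideanSpace.single b 1) = ∑ i, M b i * u i := by
    intro b
    rw [bil_apply]
    refine Finset.sum_congr rfl fun i _ => ?_
    rw [Finset.sum_eq_single b]
    · simp [hs i b]
    · intro c _ hc
      simp [hc]
    · simp
  have h2 : M⁻¹ * M = 1 := Matrix.nonsing_inv_mul M hM.det_pos.ne'.isUnit
  simp only [h1, Finset.mul_sum]
  rw [Finset.sum_comm]
  have h3 : ∀ i, ∑ b, M⁻¹ a b * (M b i * u i) = (1 : Matrix (Fin n) (Fin n) ℝ) a i * u i := by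
    intro i
    rw [← h2, Matrix.mul_apply, Finset.sum_mul]
    exact Finset.sum_congr rfl fun b _ => by ring
  simp only [h3, Matrix.one_apply, ite_mul, one_mul, zero_mul, Finset.sum_ite_eq,
    Finset.mem_univ, if_true]

theorem egr_ricci (hV : IsOpen V) (hf : ContDiffOn ℝ ∞ f V)
    (hinj : ∀ x ∈ V, Function.Injective (fderiv ℝ f x)) {x : EE n} (hx : x ∈ V) (i j : Fin n) :
    Submanifold.ricci f x i j = ricci (Submanifold.metricMat f) x j i := by
  have hg := egr_riem hV hf hinj
  have h1 := ricci_form hg hx (EuclideanSpace.single i 1) (EuclideanSpace.single j 1)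
  have h2 : ∑ a, ∑ b, ricci (Submanifold.metricMat f) x a b *
      (EuclideanSpace.single j (1 : ℝ) : EE n) a * (EuclideanSpace.single i (1 : ℝ) : EE n) b
      = ricci (Submanifold.metricMat f) x j i := by
    rw [Finset.sum_eq_single j, Finset.sum_eq_single i]
    · simp
    · intro c _ hc
      simp [hc]
    · simp
    · intro c _ hc
      simp [hc]
    · simp
  rw [← h2, h1, Submanifold.ricci]
  refine Finset.sum_congr rfl fun a _ => ?_
  simp only [egr_curv hV hf hinj hx]
  exact egr_raise (hg.posDef x hx) _ a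

theorem egr : EgrStmt := by
  intro n N f V hV hf hinj
  have hg := egr_riem hV hf hinj
  refine ⟨hg, fun x hx => ⟨egr_curv hV hf hinj hx, ?_⟩⟩
  rw [Submanifold.scalar, scal, Finset.sum_comm]
  refine Finset.sum_congr rfl fun j _ => Finset.sum_congr rfl fun i _ => ?_
  rw [egr_ricci hV hf hinj hx]
  congr 1
  have := (hg.posDef x hx).inv.isHermitian.apply j i
  simpa [inverseField] using this

end Crest.Agent.N222.D
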