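import Crest.Agent.N222.D.Defs
import Crest.Agent.R247.Ray3_97
import Crest.Agent.R247.Rdg4_879

-- ▼ part N222/D/Iso
section

/-!
# Row 222, part D: local isometries of Riemannian manifolds (helper55)
-/

set_option autoImplicit false
set_option linter.unusedSectionVars false

open Set Filter Topology Bundle
open scoped ContDiff Manifold
open Crest.GeometryTopology.CoordMetric Crest.GeometryTopology.ChartCurvature
  Crest.GeometryTopology.PointedLimit
open Crest.Agent.R202.Tens Crest.Agent.R247.Bo84 Crest.Agent.R273.RMan_798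

noncomputable section

namespace Crest.Agent.N222.D

variable {n : ℕ} {M : Type} [TopologicalSpace M] [ChartedSpace (EE n) M] [IsManifold (𝓡 n) ∞ M]
  [RiemannianBundle (fun x : M => TangentSpace (𝓡 n) x)]
  [IsContMDiffRiemannianBundle (𝓡 n) ∞ (EE n) (fun x : M => TangentSpace (𝓡 n) x)]
  {M' : Type} [TopologicalSpace M'] [ChartedSpace (EE n) M'] [IsManifold (𝓡 n) ∞ M']
  [RiemannianBundle (fun x : M' => TangentSpace (𝓡 n) x)]
  [IsContMDiffRiemannianBundle (𝓡 n) ∞ (EE n) (fun x : M' => TangentSpace (𝓡 n) x)]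

variable (n) in
/-- smooth local isometries -/
structure LocIso (F : M → M') : Prop where
  sm : ContMDiff (𝓡 n) (𝓡 n) ∞ F
  norm : ∀ (x : M) (v : TangentSpace (𝓡 n) x), ‖mfderiv (𝓡 n) (𝓡 n) F x v‖ = ‖v‖

/-- a map read in charts -/
def trF (n : ℕ) {M M' : Type} [TopologicalSpace M] [ChartedSpace (EE n) M] [TopologicalSpace M']
    [ChartedSpace (EE n) M'] (F : M → M') (x₀ : M) (x₁ : M') (y : EE n) : EE n :=
  chartAt (EE n) x₁ (F ((chartAt (EE n) x₀).symm y))

/-- its domain -/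
def tdF (n : ℕ) {M M' : Type} [TopologicalSpace M] [ChartedSpace (EE n) M] [TopologicalSpace M']
    [ChartedSpace (EE n) M'] (F : M → M') (x₀ : M) (x₁ : M') : Set (EE n) :=
  (chartAt (EE n) x₀).target ∩ (chartAt (EE n) x₀).symm ⁻¹' (F ⁻¹' (chartAt (EE n) x₁).source)

variable {F : M → M'}

theorem LocIso.inner (h : LocIso n F) (x : M) (v w : TangentSpace (𝓡 n) x) :
    (inner ℝ (mfderiv (𝓡 n) (𝓡 n) F x v) (mfderiv (𝓡 n) (𝓡 n) F x w) : ℝ) = inner ℝ v w := by
  rw [real_inner_eq_norm_add_mul_self_sub_norm_mul_self_sub_norm_mul_self_div_two,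
    real_inner_eq_norm_add_mul_self_sub_norm_mul_self_sub_norm_mul_self_div_two v w,
    ← map_add, h.norm, h.norm, h.norm]

theorem LocIso.md (h : LocIso n F) (x : M) : MDifferentiableAt (𝓡 n) (𝓡 n) F x :=
  (h.sm x).mdifferentiableAt (by simp)

theorem LocIso.fderiv_trF (h : LocIso n F) {x₀ : M} {x₁ : M'} {y : EE n} (hy : y ∈ tdF n F x₀ x₁)
    (u : EE n) : fderiv ℝ (trF n F x₀ x₁) y u = dCh x₁ (F ((chartAt (EE n) x₀).symm y))
      (mfderiv (𝓡 n) (𝓡 n) F ((chartAt (EE n) x₀).symm y) (dSy x₀ y u)) := by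
  have h1 : MDifferentiableAt (𝓡 n) (𝓡 n) (chartAt (EE n) x₀).symm y :=
    (mdifferentiable_chart (I := 𝓡 n) x₀).mdifferentiableAt_symm hy.1
  have h2 : MDifferentiableAt (𝓡 n) (𝓡 n) (chartAt (EE n) x₁) (F ((chartAt (EE n) x₀).symm y)) :=
    (mdifferentiable_chart (I := 𝓡 n) x₁).mdifferentiableAt hy.2
  have h3 := mfderiv_comp y (h.md _) h1
  have h4 := mfderiv_comp y h2 ((h.md _).comp y h1)
  have h5 : fderiv ℝ (trF n F x₀ x₁) y = mfderiv (𝓡 n) (𝓡 n)
      ((chartAt (EE n) x₁) ∘ (F ∘ (chartAt (EE n) x₀).symm)) y := by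
    rw [mfderiv_eq_fderiv]; rfl
  rw [h5, h4, h3]
  rfl

theorem LocIso.pull (h : LocIso n F) (x₀ : M) (x₁ : M') :
    Pull (chartMetric n M x₀) (chartMetric n M' x₁) (trF n F x₀ x₁) (tdF n F x₀ x₁)
      (chartAt (EE n) x₁).target := by
  have key : ∀ y ∈ tdF n F x₀ x₁, ∀ u v, bil (chartMetric n M' x₁ (trF n F x₀ x₁ y))
      (fderiv ℝ (trF n F x₀ x₁) y u) (fderiv ℝ (trF n F x₀ x₁) y v) =
      bil (chartMetric n M x₀ y) u v := by
    intro y hy u v
    rw [h.fderiv_trF hy, h.fderiv_trF hy, bil_chartMetric x₀]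
    exact (inner_eq_bil x₁ hy.2 _ _).symm.trans (h.inner _ _ _)
  refine ⟨(chartAt (EE n) x₀).isOpen_inter_preimage_symm
    ((chartAt (EE n) x₁).open_source.preimage h.sm.continuous), isRiemannianOn_chartMetric x₁,
    fun y hy => (chartAt (EE n) x₁).map_source hy.2, ?_, fun y hy i j => ?_, fun y hy => ?_⟩
  · rw [← contMDiffOn_iff_contDiffOn]
    have h1 : ContMDiffOn (𝓡 n) (𝓡 n) ∞ (chartAt (EE n) x₀).symm (chartAt (EE n) x₀).target :=
      contMDiffOn_chart_symm
    have h2 : ContMDiffOn (𝓡 n) (𝓡 n) ∞ (chartAt (EE n) x₁) (chartAt (EE n) x₁).source :=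
      contMDiffOn_chart
    exact h2.comp (h.sm.comp_contMDiffOn (h1.mono inter_subset_left)) fun y hy => hy.2
  · rw [← bil_apply, key y hy, bil_apply]
    simp
  · rw [injective_iff_map_eq_zero]
    intro u hu
    have h1 := key y hy u u
    rw [hu, map_zero, bil_chartMetric] at h1
    refine dSy_injective hy.1 ?_
    rw [map_zero]
    exact (inner_self_eq_zero (𝕜 := ℝ)
      (E := TangentSpace (𝓡 n) ((chartAt (EE n) x₀).symm y))).1 h1.symm

theorem symm_centre (p : M) : (chartAt (EE n) p).symm (chartCentre n M p) = p :=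
  (chartAt (EE n) p).left_inv (mem_chart_source (EE n) p)

theorem centre_tdF (F : M → M') (p : M) : chartCentre n M p ∈ tdF n F p (F p) :=
  ⟨centre_mem p, by rw [mem_preimage, symm_centre]; exact mem_chart_source (EE n) (F p)⟩

theorem trF_centre (F : M → M') (p : M) :
    trF n F p (F p) (chartCentre n M p) = chartCentre n M' (F p) := by
  rw [trF, symm_centre]; rfl

theorem LocIso.inCh (h : LocIso n F) (f : M' → ℝ) (p : M) :
    inCh n p (fun x => f (F x)) =ᶠ[𝓝 (chartCentre n M p)]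
      fun y => inCh n (F p) f (trF n F p (F p) y) := by
  filter_upwards [(h.pull p (F p)).isOpen.mem_nhds (centre_tdF F p)] with y hy
  simp only [R247.Bo84.inCh, trF, (chartAt (EE n) (F p)).left_inv hy.2]

theorem LocIso.mHessSq (h : LocIso n F) {f : M' → ℝ} (hf : Sm n M' f) (p : M) :
    mHessSq n (fun x => f (F x)) p = mHessSq n f (F p) := by
  rw [R247.Bo84.mHessSq, hessSq_congr (h.inCh f p), hessSq_pull (h.pull p (F p)) (centre_tdF F p)
    (by rw [trF_centre]; exact contDiffAt_centre two_le_infty ((hf _).of_le two_le_infty)),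
    trF_centre]
  rfl

theorem LocIso.ricci (h : LocIso n F) {K : ℝ} (hK : HasRicciLowerBound n M' K) :
    HasRicciLowerBound n M K := by
  intro p v
  rw [(h.pull p (F p)).ricci_pull (centre_tdF F p), (h.pull p (F p)).quadForm_pull (centre_tdF F p),
    trF_centre]
  exact hK _ _

theorem LocIso.flat (h : LocIso n F) (hs : Function.Surjective F) (hM : Flat n M) : Flat n M' := by
  intro q X Y Z
  obtain ⟨p, rfl⟩ := hs q
  have hP := h.pull p (F p)
  obtain ⟨X, rfl⟩ := hP.surj (centre_tdF F p) X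
  obtain ⟨Y, rfl⟩ := hP.surj (centre_tdF F p) Y
  obtain ⟨Z, rfl⟩ := hP.surj (centre_tdF F p) Z
  rw [← trF_centre, ← hP.curv_eq (centre_tdF F p), hM, map_zero]

theorem LocIso.norm_mgrad (h : LocIso n F) {f : M' → ℝ} (hf : Sm n M' f) (p : M) :
    ‖mgrad n (fun x => f (F x)) p‖ ≤ ‖mgrad n f (F p)‖ := by
  set u := mgrad n (fun x => f (F x)) p with hu
  have h1 : ‖u‖ * ‖u‖ ≤ ‖mgrad n f (F p)‖ * ‖u‖ := by
    rw [← real_inner_self_eq_norm_mul_norm, ← h.norm p u]
    refine le_trans (le_of_eq ?_) (real_inner_le_norm _ _)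
    nth_rw 1 [hu]
    rw [inner_mgrad, inner_mgrad]
    exact congrArg (fun L : TangentSpace (𝓡 n) p →L[ℝ] ℝ => L u)
      (mfderiv_comp p ((hf (F p)).mdifferentiableAt (by simp)) (h.md p))
  rcases (norm_nonneg u).eq_or_lt with h0 | h0
  · rw [← h0]; exact norm_nonneg _
  · exact le_of_mul_le_mul_right h1 h0

end Crest.Agent.N222.D
end
end

-- ▼ part N222/D/Aff
section

/-!
# Row 222, part D: affine functions on a complete Riemannian manifold (helper55)
-/

set_option autoImplicit false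
set_option linter.unusedSectionVars false

open Set Filter Topology Bundle
open scoped ContDiff Manifold
open Crest.GeometryTopology.CoordMetric Crest.GeometryTopology.ChartCurvature
  Crest.GeometryTopology.PointedLimit
open Crest.Agent.R202.Tens Crest.Agent.R247.Bo84 Crest.Agent.R273.RMan_798 Crest.Agent.R247
open Crest.Agent.R247.Ray97

noncomputable section

namespace Crest.Agent.N222.D

theorem eq_of_deriv_zero {u : ℝ → ℝ} {a b : ℝ} (hc : ContinuousOn u (Icc a b))
    (hd : ∀ t ∈ Ioo a b, HasDerivAt u 0 t) {t : ℝ} (ht : t ∈ Icc a b) : u t = u a := by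
  rcases ht.1.eq_or_lt with h | h
  · rw [h]
  obtain ⟨c, -, hc⟩ := exists_hasDerivAt_eq_slope u (fun _ => 0) h
    (hc.mono (Icc_subset_Icc_right ht.2)) fun s hs => hd s ⟨hs.1, hs.2.trans_le ht.2⟩
  have : t - a ≠ 0 := by linarith [sub_pos.2 h] |> fun (h : 0 < t - a) => h.ne'
  field_simp at hc
  linarith

section Top

variable {n : ℕ} {M : Type} [TopologicalSpace M] [ChartedSpace (EE n) M] [IsManifold (𝓡 n) ∞ M]
  [RiemannianBundle (fun x : M => TangentSpace (𝓡 n) x)]
  [IsContMDiffRiemannianBundle (𝓡 n) ∞ (EE n) (fun x : M => TangentSpace (𝓡 n) x)]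

theorem Sm.two {f : M → ℝ} (hf : Sm n M f) (p : M) : ContMDiffAt (𝓡 n) 𝓘(ℝ, ℝ) 2 f p :=
  (hf p).of_le two_le_infty

theorem Sm.md {f : M → ℝ} (hf : Sm n M f) (p : M) : MDifferentiableAt (𝓡 n) 𝓘(ℝ, ℝ) f p :=
  (hf p).mdifferentiableAt (by simp)

variable (n M) in
/-- affine functions -/
def Aff : Submodule ℝ (M → ℝ) where
  carrier := {f | Sm n M f ∧ ∀ p v w, mHess n f p v w = 0}
  add_mem' := fun {f h} hf hh => ⟨hf.1.add hh.1, fun p v w => by
    have := mHess_add (hf.1.two p) (hh.1.two p) v w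
    rw [hf.2, hh.2, add_zero] at this
    exact this⟩
  zero_mem' := ⟨contMDiff_const, fun p v w => by
    have := mHess_const_mul (f := fun _ : M => (0 : ℝ)) (p := p) 0 contMDiffAt_const v w
    simp only [zero_mul] at this
    exact this⟩
  smul_mem' := fun c {f} hf => ⟨contMDiff_const.mul hf.1, fun p v w => by
    have := mHess_const_mul c (hf.1.two p) v w
    rw [hf.2, mul_zero] at this
    exact this⟩

theorem aff_of_sq {f : M → ℝ} (hf : Sm n M f) (h : ∀ p, mHessSq n f p = 0) : f ∈ Aff n M :=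
  ⟨hf, fun p v w => by
    have := mHess_sq_le (hf.two p) v w
    rw [h, zero_mul, zero_mul] at this
    exact pow_eq_zero_iff two_ne_zero |>.1 (le_antisymm this (sq_nonneg _))⟩

theorem hessE_zero {f : M → ℝ} (hf : f ∈ Aff n M) (x₀ : M) {y : EE n}
    (hy : y ∈ (chartAt (EE n) x₀).target) : hessE (chartMetric n M x₀) (inCh n x₀ f) y = 0 := by
  ext1 X
  refine bil_injective (isRiemannianOn_chartMetric x₀) hy fun Z => ?_
  rw [bil_hessE (isRiemannianOn_chartMetric x₀) hy
    (contDiffAt_inCh two_le_infty hy (hf.1.two _)), ← mHess_chart hy (hf.1.two _), hf.2]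
  simp

theorem LocIso.aff {F : M → M} (h : LocIso n F) {f : M → ℝ} (hf : f ∈ Aff n M) :
    (fun x => f (F x)) ∈ Aff n M := by
  refine aff_of_sq (hf.1.comp h.sm) fun p => ?_
  rw [h.mHessSq hf.1, R247.Bo84.mHessSq, hessSq, hessE_zero hf _ (centre_mem _)]
  simp

/-- the gradient at a point -/
def gradL (p : M) : Aff n M →ₗ[ℝ] TangentSpace (𝓡 n) p where
  toFun f := mgrad n f.1 p
  map_add' f h := mgrad_add (f.2.1.md p) (h.2.1.md p)
  map_smul' c f := mgrad_const_mul c (f.2.1.md p)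

theorem flat_of_surj (h : ∀ p : M, Function.Surjective (gradL (n := n) p)) : Flat n M := by
  intro p X Y Z
  obtain ⟨f, hf⟩ := h p (dSy p (chartCentre n M p) Z)
  have h1 : grad (chartMetric n M p) (inCh n p f.1) (chartCentre n M p) = Z :=
    dSy_injective (centre_mem p) hf
  have hg := isRiemannianOn_chartMetric (n := n) p
  have h2 := ricci_identity hg (centre_mem p) (contDiffAt_grad hg (centre_mem p) (m := 2)
    (contDiffAt_centre three_le_infty ((f.2.1 p).of_le three_le_infty)) (by norm_num)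
    two_le_infty) X Y
  have h3 : cov (chartMetric n M p) (grad (chartMetric n M p) (inCh n p f.1)) =ᶠ[𝓝 (chartCentre n M p)]
      fun _ => 0 := by
    filter_upwards [hg.isOpen.mem_nhds (centre_mem p)] with y hy using hessE_zero f.2 p hy
  rw [h3.fderiv_eq, h3.self_of_nhds, h1] at h2
  rw [← h2]
  simp

end Top

variable {n : ℕ} {M : Type} [MetricSpace M] [CompleteSpace M] [ConnectedSpace M]
  [ChartedSpace (EE n) M] [IsManifold (𝓡 n) ∞ M]
  [RiemannianBundle (fun x : M => TangentSpace (𝓡 n) x)]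
  [IsContMDiffRiemannianBundle (𝓡 n) ∞ (EE n) (fun x : M => TangentSpace (𝓡 n) x)]
  [IsRiemannianManifold (𝓡 n) M]

theorem const_of_mgrad {w : M → ℝ} (hw : Sm n M w) (h : ∀ p, mgrad n w p = 0) (x y : M) :
    w y = w x := by
  have := HR216.properSpace_of_riemannian n M
  rcases eq_or_ne x y with rfl | hxy
  · rfl
  obtain ⟨γ, h0, h1, hγ⟩ := HR216.exists_geodesic_of_riemannian n x y
  have hr : IsRay x γ (dist x y) 1 :=
    ⟨dist_pos.2 hxy, one_pos, h0, fun s hs t ht => by rw [hγ s hs t ht, mul_comm]⟩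
  have := eq_of_deriv_zero (u := fun t => w (γ t))
    (hw.continuous.comp_continuousOn hr.continuousOn) (fun t ht => by
      have := hr.hasDerivAt_comp (Rdg879.exM_block n M) ht (hw.md _)
      rwa [mGam_eq_inner, h, inner_zero_left, mul_zero] at this) (right_mem_Icc.2 zero_le_one)
  simpa only [h0, h1] using this

theorem norm_const {f : M → ℝ} (hf : f ∈ Aff n M) (p q : M) :
    ‖mgrad n f p‖ = ‖mgrad n f q‖ := by
  have h1 := const_of_mgrad (w := mGam n f f)
    (fun p => contMDiffAt_mGam (hf.1 p) (hf.1 p) le_rfl le_rfl) (fun p => by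
      refine ext_inner_right ℝ fun v => ?_
      rw [inner_mgrad, mfderiv_mGam (hf.1.two p) (hf.1.two p), hf.2, inner_zero_left]
      simp) q p
  rw [mGam_self, mGam_self] at h1
  exact (pow_left_inj₀ (norm_nonneg _) (norm_nonneg _) two_ne_zero).1 h1

theorem ker_eq (p q : M) : LinearMap.ker (gradL (n := n) p) = LinearMap.ker (gradL (n := n) q) := by
  ext f
  rw [LinearMap.mem_ker, LinearMap.mem_ker, ← norm_eq_zero, ← norm_eq_zero (a := gradL q f)]
  change ‖mgrad n f.1 p‖ = 0 ↔ ‖mgrad n f.1 q‖ = 0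
  rw [norm_const f.2 p q]

instance finTan (p : M) : FiniteDimensional ℝ (TangentSpace (𝓡 n) p) :=
  inferInstanceAs (FiniteDimensional ℝ (EE n))

theorem surj_of_surj {p : M} (q : M) (h : Function.Surjective (gradL (n := n) p)) :
    Function.Surjective (gradL (n := n) q) := by
  rw [← LinearMap.range_eq_top] at h ⊢
  refine Submodule.eq_top_of_finrank_eq ?_
  rw [← (gradL q).quotKerEquivRange.finrank_eq,
    (Submodule.quotEquivOfEq _ _ (ker_eq q p)).finrank_eq, (gradL p).quotKerEquivRange.finrank_eq,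
    h, finrank_top]
  rfl

/-- flat, or a common kernel at every point -/
theorem flat_or_ker : Flat n M ∨ ∀ p : M, ∃ v : TangentSpace (𝓡 n) p, v ≠ 0 ∧
    ∀ f ∈ Aff n M, mfderiv (𝓡 n) 𝓘(ℝ, ℝ) f p v = 0 := by
  by_cases h : ∀ p : M, Function.Surjective (gradL (n := n) p)
  · exact Or.inl (flat_of_surj h)
  refine Or.inr fun p => ?_
  have h1 : LinearMap.range (gradL (n := n) p) ≠ ⊤ := fun h1 =>
    h fun q => surj_of_surj q (LinearMap.range_eq_top.1 h1)
  rw [Ne, ← Submodule.orthogonal_eq_bot_iff] at h1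
  obtain ⟨v, hv, hv0⟩ := Submodule.exists_mem_ne_zero_of_ne_bot h1
  refine ⟨v, hv0, fun f hf => ?_⟩
  rw [← inner_mgrad]
  exact hv _ ⟨⟨f, hf⟩, rfl⟩

/-- a finite generating family -/
theorem exists_span (p : M) : ∃ (k : ℕ) (v : Fin k → M → ℝ), (∀ i, v i ∈ Aff n M) ∧
    ∀ w ∈ Aff n M, ∃ c : Fin k → ℝ, (∀ i, |c i| ≤ ‖mgrad n w p‖) ∧
      ∀ x y, w x - w y = ∑ i, c i * (v i x - v i y) := by
  let e := stdOrthonormalBasis ℝ (LinearMap.range (gradL (n := n) p))
  choose v hv using fun i => (e i).2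
  refine ⟨_, fun i => (v i).1, fun i => (v i).2, fun w hw => ?_⟩
  let u : LinearMap.range (gradL (n := n) p) := ⟨gradL p ⟨w, hw⟩, ⟨_, rfl⟩⟩
  refine ⟨fun i => inner ℝ (e i) u, fun i => ?_, fun x y => ?_⟩
  · have := abs_real_inner_le_norm (e i) u
    rwa [e.orthonormal.1 i, one_mul] at this
  · let w' : Aff n M := ⟨w, hw⟩ - ∑ i, (inner ℝ (e i) u : ℝ) • v i
    have h1 : w' ∈ LinearMap.ker (gradL (n := n) p) := by
      have h2 := congrArg Subtype.val (e.sum_repr' u)
      rw [LinearMap.mem_ker, map_sub, map_sum, sub_eq_zero]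
      simp only [map_smul, hv]
      simpa using h2.symm
    have h3 := const_of_mgrad w'.2.1 (fun q => by rw [ker_eq p q] at h1; exact h1) y x
    simp only [w', Submodule.coe_sub, Submodule.coe_sum, Submodule.coe_smul, Pi.sub_apply,
      Finset.sum_apply, Pi.smul_apply, smul_eq_mul] at h3
    simp only [mul_sub, Finset.sum_sub_distrib]
    linarith

/-- affine functions are affine along minimisers -/
theorem aff_ray {f : M → ℝ} (hf : f ∈ Aff n M) {x : M} {γ : ℝ → M} {b : ℝ}
    (hr : IsRay x γ 1 b) {s t : ℝ} (hs : s ∈ Icc 0 b) (ht : t ∈ Icc 0 b) :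
    f (γ t) - f (γ s) = (t - s) / b * (f (γ b) - f x) := by
  have := HR216.properSpace_of_riemannian n M
  have hm := Rdg879.exM_block n M
  set q : ℝ → ℝ := fun t => t⁻¹ * mGam n f (Crest.GeometryTopology.MTW.halfDistSq x) (γ t) with hq
  have h1 : ∀ t ∈ Ioo 0 b, HasDerivAt q 0 t := fun t ht => by
    have := hr.hasDerivAt_mGam hm ht (hf.1.two _)
    rwa [hf.2, mul_zero] at this
  have h2 : ∀ s ∈ Ioo 0 b, ∀ t ∈ Ioo 0 b, s ≤ t → q t = q s := fun s hs t ht hst =>
    eq_of_deriv_zero (b := t) (fun r hr => (h1 r ⟨hs.1.trans_le hr.1, hr.2.trans_lt ht.2⟩).continuousAt.continuousWithinAt)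
      (fun r hr => h1 r ⟨hs.1.trans hr.1, hr.2.trans ht.2⟩) (right_mem_Icc.2 hst)
  have hb := hr.bpos
  have h3 : ∀ t ∈ Ioo 0 b, q t = q (b / 2) := fun t ht => by
    have hb2 : b / 2 ∈ Ioo 0 b := ⟨by linarith, by linarith⟩
    rcases le_total t (b / 2) with h | h
    · exact (h2 t ht _ hb2 h).symm
    · exact h2 _ hb2 t ht h
  have h4 : ∀ t ∈ Icc 0 b, f (γ t) - q (b / 2) * t = f (γ 0) - q (b / 2) * 0 := fun t ht =>
    eq_of_deriv_zero (u := fun t => f (γ t) - q (b / 2) * t)
      ((hf.1.continuous.comp_continuousOn hr.continuousOn).sub (by fun_prop)) (fun r hr' => by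
        have := (hr.hasDerivAt_comp hm hr' (hf.1.md _)).sub
          ((hasDerivAt_id r).const_mul (q (b / 2)))
        refine this.congr_deriv ?_
        rw [← h3 r hr', mul_one, sub_self]) ht
  have e1 := h4 s hs
  have e2 := h4 t ht
  have e3 := h4 b (right_mem_Icc.2 hb.le)
  rw [hr.zero] at e1 e2 e3
  have e4 : f (γ b) - f x = q (b / 2) * b := by linarith
  rw [e4]
  field_simp
  linarith

end Crest.Agent.N222.D
end
end

-- ▼ part N222/D/Line

/-!
# Row 222, part D: the affine coordinates are proper (helper55)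
-/

set_option autoImplicit false
set_option linter.unusedSectionVars false

open Set Filter Topology Bundle Metric
open scoped ContDiff Manifold
open Crest.GeometryTopology.CoordMetric Crest.GeometryTopology.ChartCurvature
  Crest.GeometryTopology.PointedLimit
open Crest.Agent.R202.Tens Crest.Agent.R247.Bo84 Crest.Agent.R273.RMan_798 Crest.Agent.R247
open Crest.Agent.R247.Ray97

noncomputable section

namespace Crest.Agent.N222.D

/-- limits of longer and longer minimisers -/
theorem exists_line {X : Type*} [MetricSpace X] [ProperSpace X] (γ : ℕ → ℝ → X) (p : X) (r : ℝ)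
    (h0 : ∀ j, dist (γ j 0) p ≤ r)
    (hγ : ∀ (j : ℕ) (s t : ℝ), |s| ≤ j → |t| ≤ j → dist (γ j s) (γ j t) = |s - t|) :
    ∃ c : ℝ → X, (∀ s t, dist (c s) (c t) = |s - t|) ∧
      ∀ t, Tendsto (fun j => γ j t) (hyperfilter ℕ) (𝓝 (c t)) := by
  have hU : (hyperfilter ℕ : Filter ℕ) ≤ atTop := Nat.hyperfilter_le_atTop
  have hev : ∀ t : ℝ, ∀ᶠ j : ℕ in (hyperfilter ℕ : Filter ℕ), |t| ≤ j := fun t =>
    hU (tendsto_natCast_atTop_atTop.eventually (eventually_ge_atTop |t|))
  have key : ∀ t, ∃ a, Tendsto (fun j => γ j t) (hyperfilter ℕ) (𝓝 a) := fun t => by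
    obtain ⟨a, -, ha⟩ := (isCompact_closedBall p (|t| + r)).ultrafilter_le_nhds
      ((hyperfilter ℕ).map fun j => γ j t) (by
        rw [Ultrafilter.coe_map, le_principal_iff, mem_map]
        filter_upwards [hev t] with j hj
        have h1 := hγ j t 0 hj (by simp)
        rw [sub_zero] at h1
        exact mem_closedBall.2 ((dist_triangle _ (γ j 0) _).trans (by linarith [h0 j])))
    exact ⟨a, ha⟩
  choose c hc using key
  refine ⟨c, fun s t => tendsto_nhds_unique ((hc s).dist (hc t)) (tendsto_const_nhds.congr' ?_), hc⟩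
  filter_upwards [hev s, hev t] with j hs ht using (hγ j s t hs ht).symm

variable {n : ℕ} {M : Type} [MetricSpace M] [CompleteSpace M] [ConnectedSpace M]
  [ChartedSpace (EE n) M] [IsManifold (𝓡 n) ∞ M]
  [RiemannianBundle (fun x : M => TangentSpace (𝓡 n) x)]
  [IsContMDiffRiemannianBundle (𝓡 n) ∞ (EE n) (fun x : M => TangentSpace (𝓡 n) x)]
  [IsRiemannianManifold (𝓡 n) M]

variable (n) in
include n in
theorem exists_ray {x y : M} (h : 0 < dist x y) :
    ∃ c : ℝ → M, IsRay x c 1 (dist x y) ∧ c (dist x y) = y := by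
  obtain ⟨γ, h0, h1, hγ⟩ := HR216.exists_geodesic_of_riemannian n x y
  refine ⟨fun t => γ (t / dist x y), ⟨one_pos, h, by simpa using h0, fun s hs t ht => ?_⟩,
    by simpa [div_self h.ne'] using h1⟩
  rw [hγ _ ⟨div_nonneg hs.1 h.le, (div_le_one h).2 hs.2⟩ _
    ⟨div_nonneg ht.1 h.le, (div_le_one h).2 ht.2⟩, ← sub_div, abs_div, abs_of_pos h]
  field_simp

theorem bounded_sublevel (hS : SplitStmt) {Γ : Type} [Group Γ] [MulAction Γ M]
    (hric : HasRicciLowerBound n M 0) (hI : ∀ g : Γ, LocIso n fun x : M => g • x)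
    (hd : ∀ (g : Γ) (x y : M), dist (g • x) (g • y) = dist x y) {K : Set M} (hK : IsCompact K)
    (hcov : ∀ x : M, ∃ g : Γ, g • x ∈ K) (p : M) {k : ℕ} {v : Fin k → M → ℝ}
    (hv : ∀ i, v i ∈ Aff n M) (hsp : ∀ w ∈ Aff n M, ∃ c : Fin k → ℝ,
      (∀ i, |c i| ≤ ‖mgrad n w p‖) ∧ ∀ x y, w x - w y = ∑ i, c i * (v i x - v i y)) (R : ℝ) :
    Bornology.IsBounded {x | ∀ i, |v i x| ≤ R} := by
  have := HR216.properSpace_of_riemannian n M
  by_contra hb
  rw [isBounded_iff_subset_closedBall p] at hb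
  have h1 : ∀ j : ℕ, ∃ x, (∀ i, |v i x| ≤ R) ∧ 2 * (j + 1 : ℝ) < dist p x := fun j => by
    by_contra h
    push Not at h
    exact hb ⟨_, fun x hx => by rw [mem_closedBall, dist_comm]; exact h x hx⟩
  choose x hx hL using h1
  have hpos : ∀ j, 0 < dist p (x j) := fun j => lt_trans (by positivity) (hL j)
  choose c hc hcx using fun j => exists_ray n (hpos j)
  choose g hg using fun j => hcov (c j (dist p (x j) / 2))
  obtain ⟨r, hr⟩ := hK.isBounded.subset_closedBall p
  have hmem : ∀ (j : ℕ) (t : ℝ), |t| ≤ j + 1 → dist p (x j) / 2 + t ∈ Icc 0 (dist p (x j)) :=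
    fun j t ht => ⟨by linarith [hL j, neg_abs_le t], by linarith [hL j, le_abs_self t]⟩
  obtain ⟨γ, hγ, hlim⟩ := exists_line (fun j t => g j • c j (dist p (x j) / 2 + t)) p r
    (fun j => by simpa using hr (hg j)) fun j s t hs ht => by
      rw [hd, (hc j).dist' _ (hmem j s (by linarith)) _ (hmem j t (by linarith)), one_mul]
      congr 1; ring
  obtain ⟨b, hbs, hbh, hbγ⟩ := hS n M hric γ hγ
  have hba := aff_of_sq hbs hbh
  set D := ∑ i, ‖mgrad n b p‖ * (R + |v i p|) with hD
  have h2 : ∀ j : ℕ, b (g j • c j (dist p (x j) / 2 + 1)) - b (g j • c j (dist p (x j) / 2 + 0)) ≤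
      D / (j + 1 : ℝ) := fun j => by
    obtain ⟨a, ha, ha'⟩ := hsp _ ((hI (g j)).aff hba)
    have hj : (0 : ℝ) ≤ j := Nat.cast_nonneg j
    rw [ha', hD, Finset.sum_div]
    refine Finset.sum_le_sum fun i _ => (le_abs_self _).trans ?_
    rw [aff_ray (hv i) (hc j) (hmem j 0 (by simp; linarith)) (hmem j 1 (by simp)), hcx, abs_mul,
      abs_mul, mul_div_assoc]
    refine mul_le_mul ((ha i).trans (((hI (g j)).norm_mgrad hbs p).trans
      (norm_const hba _ p).le)) ?_ (by positivity) (norm_nonneg _)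
    rw [show dist p (x j) / 2 + 1 - (dist p (x j) / 2 + 0) = 1 by ring,
      abs_of_pos (one_div_pos.2 (hpos j)), div_eq_inv_mul (R + _)]
    refine mul_le_mul ?_ ((abs_sub _ _).trans (by linarith [hx j i])) (abs_nonneg _)
      (by positivity)
    rw [one_div]
    exact inv_anti₀ (by positivity) (by linarith [hL j])
  have h3 := ((hbs.continuous.tendsto _).comp (hlim 1)).sub ((hbs.continuous.tendsto _).comp (hlim 0))
  have h4 : Tendsto (fun j : ℕ => D / (j + 1 : ℝ)) (hyperfilter ℕ) (𝓝 0) :=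
    (tendsto_const_nhds.div_atTop (tendsto_atTop_add_const_right _ 1
      tendsto_natCast_atTop_atTop)).mono_left Nat.hyperfilter_le_atTop
  have h5 := le_of_tendsto_of_tendsto' h3 h4 h2
  rw [hbγ, hbγ] at h5
  norm_num at h5

end Crest.Agent.N222.D
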